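import Crest.Agent.X212.Kit16.Sb3
import Crest.Agent.X212.Glw42.Main
import Crest.Agent.X212.Klp2.ClsP
import Crest.Agent.X212.Sb67.W1
import Crest.Agent.X212.An31.An
import Crest.Agent.X212.Dgr80.An0
import Crest.Agent.X212.St29.SbB
import Crest.Agent.X212.Dgr80.An1
import Crest.Agent.X212.Dgr80.An2
import Crest.Agent.X212.Yc4.Gen
import Crest.Agent.X212.Yc4.Main
import Crest.Agent.X212.Chr96.Rl
import Crest.Agent.X212.Chr96.Main
import Crest.Agent.X212.Dec35.ScA
import Crest.Agent.X212.Dec35.ScB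
import Crest.Agent.X212.Dec35.ScC
import Crest.Agent.X212.Sb73.V
import Crest.Agent.X212.Dec35.ScD
import Crest.Agent.X212.Tla99.Pat
import Crest.Agent.X212.Tla99.Defs
import Crest.Agent.X212.Tla99.Cy
import Crest.Agent.X212.Tla99.Main
import Crest.Agent.X212.Sw88.Ub
import Crest.Agent.X212.Sw88.Ua
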