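import Crest.Agent.X212.Sw88.Cut
import Crest.Agent.X212.Mp86.OY
import Crest.Agent.X212.Cht98.Dp

/-!
# Row 212, layer AN-S (helper88): SW-C0, the spinor is bounded
-/

set_option autoImplicit false
set_option linter.unusedSectionVars false
noncomputable section
open scoped Manifold ContDiff Topology InnerProductSpace
open MeasureTheory Set Filter

namespace Crest.Agent.X212.Sw88
open An Wz78 Sob92 Cyf70
open Sw (Bg F2 En3 Nk Pc Dt)
open M (Mf)
open Nd18 (Dp ct BD)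

variable {κ lam ν : Type} [Fintype κ] [Fintype lam] [Fintype ν] [DecidableEq ν]

section gen
variable {E : Type} [NormedAddCommGroup E] [NormedSpace ℝ E] [FiniteDimensional ℝ E]
  [MeasurableSpace E] [BorelSpace E]
  {HM : Type} [TopologicalSpace HM] {I : ModelWithCorners ℝ E HM}
  {M : Type} [TopologicalSpace M] [ChartedSpace HM M] [IsManifold I ∞ M] [MeasurableSpace M]
  {ι : Type} [Fintype ι]

theorem dir_smul {V : Type} [NormedAddCommGroup V] [InnerProductSpace ℝ V] [CompleteSpace V]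
    (F : Pre I M ι) (ρ A : ι → M → V →L[ℝ] V) {f : M → ℝ} {u : M → V} {x : M} (hf : SA I f x)
    (hu : SA I u x) : dir I F.e ρ A (fun y => f y • u y) x =
      ∑ i, F.D i f x • ρ i x (u x) + f x • dir I F.e ρ A u x := by
  simp only [dir, nab_smul _ hf hu, map_add, map_smul, Finset.sum_add_distrib, Finset.smul_sum]
  rfl

theorem D_fn (F : Pre I M ι) {φ : ℝ → ℝ} {τ : M → ℝ} {x : M} {r : ℝ} (h : HasDerivAt φ r (τ x))
    (hτ : SA I τ x) (a : ι) : F.D a (fun y => φ (τ y)) x = r * F.D a τ x :=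
  (Mp86.dv_comp h.hasFDerivAt hτ.md).trans (mul_comm _ _)

/-- the constant of the chain rule -/
def cF (C : ℕ → ℝ) : ℕ → (ℕ → ℝ) → ℝ
  | 0, A => A 0
  | k + 1, A => |A 0| + 2 ^ (k + 1) * |cF C k fun j => A (j + 1)| * |C k|

theorem CB_fn [I.Boundaryless] [BorelSpace M] [T2Space M] [SecondCountableTopology M] {F : Pre I M ι} {τ : M → ℝ} (hτ : Sm I τ) {C : ℕ → ℝ}
    (hC : ∀ a, F.CBs (F.D a τ) C) (k : ℕ) : ∀ {φ A}, BD φ A → F.CB k (fun x => φ (τ x)) (cF C k A) := by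
  induction k with
  | zero => exact fun h => CB_zero.2 fun x => by simpa [cF] using h.2 0 0 le_rfl (τ x)
  | succ k ih =>
    intro φ A h
    refine CB_succ.2 ⟨fun x => ?_, fun a => ?_⟩
    · have : ‖φ (τ x)‖ ≤ A 0 := by simpa using h.2 0 0 le_rfl (τ x)
      exact this.trans ((le_abs_self _).trans (le_add_of_nonneg_right (by positivity)))
    · rw [funext fun x => D_fn F (h.1.differentiable (by simp) _).hasDerivAt (hτ x) a]
      exact CB_mono (Cht98.CB_mul (h.deriv.1.contMDiff.comp hτ) (hC a).1 (ih h.deriv) ((hC a).2 k))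
        (le_add_of_nonneg_left (abs_nonneg _))

theorem Lop_cb {F : Fr I M ι} {C : ℕ → ℝ} (h : F.Tame C) {χ : M → ℝ} {A : ℝ} (hχ : F.CB 2 χ A)
    (y : M) : 6 * ∑ a, dv I (F.e a) χ y ^ 2 + 2 * |Mp86.Lop I F.e F.dv χ y| ≤
      Fintype.card ι * (6 * A ^ 2 + 2 * (A + |C 0| * A)) := by
  have h2 : ∀ a, |dv I (F.e a) χ y| ≤ A := fun a => hχ [a] one_le_two y
  have h4 : |Mp86.Lop I F.e F.dv χ y| ≤ Fintype.card ι * (A + |C 0| * A) := sum_abs_le fun a => by
    have h1 : |dv I (F.e a) (dv I (F.e a) χ) y| ≤ A := hχ [a, a] le_rfl y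
    have h3 : |F.dv a y| ≤ C 0 := (h.dv a).2 0 [] le_rfl y
    refine (abs_add_le _ _).trans (add_le_add h1 ?_)
    rw [smul_eq_mul, abs_mul]
    exact mul_le_mul (h3.trans (le_abs_self _)) (h2 a) (abs_nonneg _) (abs_nonneg _)
  have h5 : |∑ a, dv I (F.e a) χ y ^ 2| ≤ Fintype.card ι * A ^ 2 := sum_abs_le fun a => by
    rw [abs_pow]; exact pow_le_pow_left₀ (abs_nonneg _) (h2 a) 2
  linarith [le_abs_self (∑ a, dv I (F.e a) χ y ^ 2)]

end gen

variable {X : Mf 4} {nc : ℕ}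

/-- the linear coefficient of the differential inequality -/
def kL (n : ℝ) (C : ℕ → ℝ) (R : ℝ) : ℝ :=
  2 * (R + C 0) + (kS n (C 2) / 2 + n * (2 * C 0 + C 0 ^ 2 / 2))

/-- the bound -/
def kB (n : ℝ) (C : ℕ → ℝ) (w A G R : ℝ) : ℝ := √(Real.exp (2 * G) *
  (n * (6 * A ^ 2 + 2 * (A + |C 0| * A)) / (w / 4 * Real.exp (-2 * G)) +
    √(kL n C R ^ 2 / (w * Real.exp (-2 * G)) / (w / 4 * Real.exp (-2 * G)))))

theorem c0_core {b : Bg X.I X.M κ lam ν nc} (hb : b.OK) {C : ℕ → ℝ} (hC : b.Bd C) (hw : 0 < b.w)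
    {c : Sw.Cfg X.M κ ν} (hc : b.Adm c) {g χ : X.M → ℝ} (hg : Sm X.I g) {A G R : ℝ}
    (hD : ∀ x, b.eD c x = ∑ i, b.F.D i g x • b.m.ρ i x (c.Φ x)) (hE : ∀ x, ‖b.eC c x‖ ≤ R)
    (hχ : Sm X.I χ) (hA : b.F.CB 2 χ A) (hK : HasCompactSupport χ) (h01 : ∀ x, 0 ≤ χ x ∧ χ x ≤ 1)
    (hG : ∀ x ∈ tsupport χ, |g x| ≤ G) {x₀ : X.M} (h1 : χ x₀ = 1) :
    ‖c.Φ x₀‖ ≤ kB (Fintype.card (Option κ)) C b.w A G R := by
  have sE : Sm X.I fun x => Real.exp (-g x) := Real.contDiff_exp.contMDiff.comp hg.neg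
  set ψ : X.M → Eu ν := fun x => Real.exp (-g x) • c.Φ x with hψ
  have sψ : Sm X.I ψ := sE.smul hc.sΦ
  have e0 : ∀ x, dir X.I b.F.e b.m.ρ (b.W c) ψ x + b.ms x (ψ x) = 0 := fun x => by
    have d : ∀ i, b.F.D i (fun x => Real.exp (-g x)) x = -Real.exp (-g x) * b.F.D i g x := fun i =>
      D_fn b.F.toPre (φ := fun s => Real.exp (-s)) (by simpa using (hasDerivAt_neg (g x)).exp)
        (hg x) i
    rw [hψ, dir_smul b.F.toPre _ _ (sE x) (hc.sΦ x), map_smul, add_assoc, ← smul_add]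
    change _ + _ • b.eD c x = 0
    simp only [d, hD, Finset.smul_sum, ← Finset.sum_add_distrib, smul_smul, ← add_smul, neg_mul,
      neg_add_cancel, zero_smul, Finset.sum_const_zero]
  have A0 : 0 ≤ A := (norm_nonneg _).trans (CB_bound hA x₀)
  have c0 : 0 < b.w / 4 * Real.exp (-2 * G) := by positivity
  have k := Mp86.ko (I := X.I) (e := b.F.e) (b := b.F.dv) (f := fun y => ‖ψ y‖ ^ 2)
    (R := kL (Fintype.card (Option κ)) C R ^ 2 / (b.w * Real.exp (-2 * G))) c0 (by positivity)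
    (by positivity) hK h01 (fun x _ => Mp86.vf b.F.toPre x) (Mp86.cm2 hχ) (Lop_cb hC.tame hA)
    (fun x _ => Mp86.cm2 ((contDiff_norm_sq ℝ).contMDiff.comp sψ) x) (fun x hx _ => by
      refine le_trans ?_ (boch hb hc (sψ x) (.of_forall fun y => by
        rw [hψ, map_smul, p_of hb (hc.pΦ y)]) (.of_forall e0) (hC.ms x) fun i => hC.dms i x)
      have a1 := inner_fc_qd_ge hb (hc.pΦ x)
      have a2 : ‖b.eC c x + b.om x‖ ≤ R + C 0 := (norm_add_le _ _).trans (add_le_add (hE x) (hC.om x))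
      have a3 := scal_le hC.tame x
      have a4 : Real.exp (-2 * G) * Real.exp (-g x) ^ 2 ≤ 1 := by
        rw [← Real.exp_nat_mul, ← Real.exp_add, Real.exp_le_one_iff]
        have := neg_abs_le (g x)
        have := hG x hx
        push_cast; linarith
      have n1 : ‖ψ x‖ ^ 2 = Real.exp (-g x) ^ 2 * ‖c.Φ x‖ ^ 2 := by
        rw [hψ, norm_smul, mul_pow, Real.norm_eq_abs, sq_abs]
      simp only [n1]
      rw [hψ, qd_smul, real_inner_smul_right, ← sq]
      set E := Real.exp (-g x) ^ 2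
      set e := Real.exp (-2 * G)
      set t := ‖c.Φ x‖ ^ 2 with ht
      set L := kL (Fintype.card (Option κ)) C R with hL
      have t0 : 0 ≤ t := sq_nonneg _
      have E0 : 0 ≤ E := sq_nonneg _
      have e0 : 0 < b.w * e := by positivity
      rw [show ‖c.Φ x‖ ^ 4 = t ^ 2 by rw [ht]; ring] at a1
      have b1 : L * (E * t) ≤ b.w * e / 4 * (E * t) ^ 2 + L ^ 2 / (b.w * e) := by
        have : L ^ 2 / (b.w * e) = (b.w * e) * (L / (b.w * e)) ^ 2 := by field_simp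
        rw [this]
        nth_rw 1 [show L = b.w * e * (L / (b.w * e)) from (mul_div_cancel₀ L e0.ne').symm]
        nlinarith [mul_nonneg e0.le (sq_nonneg (E * t / 2 - L / (b.w * e)))]
      have b2 : e * E * (b.w * E * t ^ 2) ≤ 1 * (b.w * E * t ^ 2) := by gcongr
      have b3 := mul_le_mul_of_nonneg_left a1 E0
      have b4 := mul_le_mul_of_nonneg_right a2 (mul_nonneg E0 t0)
      have b5 := mul_le_mul_of_nonneg_right a3 (mul_nonneg E0 t0)
      rw [hL, kL] at b1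
      rw [hL, kL]
      nlinarith) x₀
  refine Real.le_sqrt_of_sq_le ?_
  rw [h1, one_pow, one_mul, hψ, norm_smul, mul_pow, Real.norm_eq_abs, sq_abs] at k
  refine le_trans ?_ (mul_le_mul_of_nonneg_left k (Real.exp_pos _).le)
  rw [← mul_assoc, ← Real.exp_nat_mul, ← Real.exp_add]
  refine le_mul_of_one_le_left (sq_nonneg _) (Real.one_le_exp ?_)
  have := le_abs_self (g x₀)
  have := hG x₀ (subset_tsupport _ (by simp [h1]))
  push_cast; linarith

section nk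
variable {e : En3 κ lam ν} {b : Bg X.I X.M κ lam ν nc} (K : Nk e b) (c : Sw.Cfg X.M κ ν) (x : X.M)

theorem norm_χ_smul {N : Type} [NormedAddCommGroup N] [NormedSpace ℝ N] (v : N) :
    ‖K.χ x • v‖ ≤ ‖v‖ := by
  rw [norm_smul, Real.norm_eq_abs, abs_of_nonneg (a := K.χ x) Nd18.ct_mem.1]
  exact mul_le_of_le_one_left (norm_nonneg _) Nd18.ct_mem.2

theorem norm_ms {T : e.YT} {k : ℕ} {s : ℝ} (h : T.Sz k s) : ‖K.ms T c x‖ ≤ s := by
  rw [Nk.ms, Nd18.Nk.ext, smul_comm]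
  exact (norm_χ_smul K x _).trans (by simpa using CB_bound (h 0 k.zero_le _) _)

omit K c x in
theorem hl_le (e : En3 κ lam ν) : ∃ A, 0 ≤ A ∧ (e.OK → ∀ r y, ‖deriv e.f r • e.ζ y‖ ≤ A) := by
  by_cases he : e.OK
  · obtain ⟨A, hA⟩ := he.bf 1
    obtain ⟨B, hB⟩ := isCompact_univ.exists_bound_of_continuousOn he.sζ.continuous.continuousOn
    refine ⟨|A| * |B|, by positivity, fun _ r y => ?_⟩
    rw [norm_smul]
    exact mul_le_mul (by simpa using (hA r).trans (le_abs_self A))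
      ((hB y trivial).trans (le_abs_self B)) (norm_nonneg _) (abs_nonneg _)
  · exact ⟨0, le_rfl, fun h => absurd h he⟩

theorem norm_hl {A : ℝ} (h : ∀ r y, ‖deriv e.f r • e.ζ y‖ ≤ A) : ‖K.hl c x‖ ≤ A := by
  rw [Nk.hl, Nd18.Nk.ext, neg_smul, norm_neg, smul_comm]
  exact (norm_χ_smul K x _).trans (h _ _)

end nk

section pc
variable {d : Dt κ lam ν} {N : Type} [Fintype N] {ty : N → d.𝓔} (P : Pc d X nc ty)

theorem norm_tm {k : ℕ} {w : d.W} {s : ℝ} (h0 : 0 ≤ s) (h : P.Sz k w s) (c : Sw.Cfg X.M κ ν)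
    (x : X.M) : ‖P.tm w c x‖ ≤ s * (1 + Fintype.card N) := by
  refine (norm_add_le _ _).trans ((add_le_add (CB_bound h.1 x) ((norm_sum_le _ _).trans
    (Finset.sum_le_card_nsmul _ _ s fun i _ => ?_))).trans (by simp [mul_add, mul_comm]))
  rcases P.nk i with _ | K
  · simpa using h0
  rcases hT : d.yt w (ty i) with _ | T
  · simpa using h0
  · exact norm_ms K c x (h.2.2.2 i T hT)

theorem norm_terms {k : ℕ} {η : ℝ} {q : d.W →₀ ℝ} (h : P.Small k η q) (c : Sw.Cfg X.M κ ν)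
    (x : X.M) : ‖q.sum fun w r => r • P.tm w c x‖ ≤ η * (1 + Fintype.card N) := by
  obtain ⟨s, h1, h2⟩ := h
  refine (norm_sum_le _ _).trans (le_trans ?_ (mul_le_mul_of_nonneg_right h1 (by positivity)))
  rw [Finsupp.sum, Finset.sum_mul]
  refine Finset.sum_le_sum fun w hw => ?_
  rw [norm_smul, mul_assoc]
  exact mul_le_mul_of_nonneg_left (norm_tm P (h2 w hw).1 (h2 w hw).2 c x) (abs_nonneg _)

end pc

/-- the bound of the spinor, for any right hand side of size `R` -/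
theorem c0P {N : Type} [Fintype N] (e : N → En3 κ lam ν) (C : ℕ → ℝ) {w : ℝ} (hw : 0 < w) (R : ℝ) :
    ∃ C', ∀ (X : Mf 4) (nc : ℕ) (P : Sw.Pz X nc e), P.OK → P.bg.Bd C → P.bg.w = w →
      ∀ c, P.bg.Adm c → (∀ x, P.bg.eD c x = P.p0.D c x ∧ ‖P.bg.eC c x - P.p0.C c x‖ ≤ R) →
        ∀ x, ‖c.Φ x‖ ≤ C' := by
  choose A A0 hA using fun i => hl_le (e i)
  have hB : ∀ i, ∃ B, (e i).OK → ∀ r, 0 ≤ r → (e i).b r ≤ B := fun i => by
    by_cases h : (e i).OK
    · exact (b_le h).imp fun _ k _ => k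
    · exact ⟨0, fun k => absurd k h⟩
  choose B hB using hB
  choose T hT using fun i => Nd18.cbs_Dτ (e i).D
  obtain ⟨S, hS⟩ := Nd18.bd_ct
  refine ⟨kB (Fintype.card (Option κ)) C w (2 ^ (2 + 1) * |C 2| * abs ((2 ^ (2 + 1) *
    abs (1 + ∑ i, |cF (T i) 2 S|)) ^ (Finset.univ : Finset N).card)) (∑ i, |B i|)
    (∑ i, A i + R), fun X nc P hP hC e c hc hE x₀ => ?_⟩
  subst e
  obtain ⟨χ, c1, c2, c3, c4⟩ := hC.tame.exh {x₀} isCompact_singleton
  let g : N → X.M → ℝ := fun i x => (P.nk i).elim 0 fun K => γ K c (K.τ x) - γ K c (K.τ x₀)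
  let φ : N → X.M → ℝ := fun i x =>
    (P.nk i).elim 1 fun K => ct (some (K.τ x₀ - 1)) (some (K.τ x₀ + 1)) 0 (K.τ x)
  have k : ∀ i, Sm X.I (g i) ∧ Sm X.I (φ i) ∧ P.bg.F.CB 2 (φ i) (1 + ∑ i, |cF (T i) 2 S|) ∧
      (∀ x, φ i x ∈ Icc (0 : ℝ) 1) ∧ φ i x₀ = 1 ∧ (∀ x, φ i x ≠ 0 → |g i x| ≤ |B i|) ∧
      ∀ x, ((P.nk i).elim 0 fun K => K.rad c x) =
        ∑ a, P.bg.F.D a (g i) x • P.bg.m.ρ a x (c.Φ x) := fun i => by
    have s0 : |cF (T i) 2 S| ≤ ∑ i, |cF (T i) 2 S| :=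
      Finset.single_le_sum (f := fun i => |cF (T i) 2 S|) (fun _ _ => abs_nonneg _) (Finset.mem_univ i)
    simp only [g, φ]
    rcases P.nk i with _ | K
    · exact ⟨contMDiff_const, contMDiff_const, CB_mono (CB_const 2 (1 : ℝ)) (by
        rw [norm_one]; linarith [abs_nonneg (cF (T i) 2 S)]), fun _ => by simp, rfl,
        fun _ _ => by simp, fun x => by simp [Pre.D_def, dv_const]⟩
    have s1 := sm_γτ K (hP.en i) hc.sΦ
    refine ⟨s1.sub contMDiff_const, Nd18.contDiff_ct.contMDiff.comp K.sm_τ,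
      CB_mono (CB_fn K.sm_τ (hT i K.toNk) 2 (hS _ _ _)) (by linarith [le_abs_self (cF (T i) 2 S)]),
      fun _ => Nd18.ct_mem, Nd18.ct_one (by simp [Dp]), fun x hx => ?_, fun x => ?_⟩
    · have m : K.τ x ∈ Dp (some (K.τ x₀ - 1)) (some (K.τ x₀ + 1)) 0 :=
        by_contra fun n => hx (Nd18.ct_zero n)
      simp only [Dp, Option.mem_def, Option.some.injEq, forall_eq', mem_ofPred_eq] at m
      refine (γ_lip K (hP.en i) hc.sΦ (fun r h => (hB i (hP.en i) r h).trans (le_abs_self _)) _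
        _).trans (mul_le_of_le_one_right (abs_nonneg _) (abs_le.2 ⟨by linarith, by linarith⟩))
    · refine (rad_eq K (hP.en i) hc.sΦ x).trans (Finset.sum_congr rfl fun a _ => ?_)
      simp only [Option.elim, Pre.D_def]
      rw [dv_sub' (s1 x) contMDiffAt_const, dv_const, Pi.zero_apply, sub_zero]
  have p := Cht98.CB_prod (fun i => (k i).2.1) (fun i => (k i).2.2.1) Finset.univ
  refine c0_core hP.bg hC hw hc (g := fun x => ∑ i, g i x) (χ := fun x => χ x * ∏ i, φ i x)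
    (contMDiff_finsetSum fun i _ => (k i).1) (fun x => ?_) (fun x => ?_) (c1.1.mul p.1)
    (Cht98.CB_mul c1.1 p.1 (c1.2 2) p.2) c2.mul_right (fun x => ?_) ?_ ?_
  · rw [(hE x).1]
    change ∑ i, _ = _
    simp only [(k _).2.2.2.2.2.2, Pre.D_def]
    rw [Finset.sum_comm]
    exact Finset.sum_congr rfl fun a _ => by
      rw [← Finset.sum_smul, dv_sum' _ fun i => (k i).1 x]
  · rw [← add_sub_cancel (P.p0.C c x) (P.bg.eC c x)]
    refine (norm_add_le _ _).trans (add_le_add ((norm_sum_le _ _).trans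
      (Finset.sum_le_sum fun i _ => ?_)) (hE x).2)
    rcases P.nk i with _ | K
    · simpa using A0 i
    · exact norm_hl K c x (hA i (hP.en i))
  · have q0 := Finset.prod_nonneg fun i (_ : i ∈ Finset.univ) => ((k i).2.2.2.1 x).1
    exact ⟨mul_nonneg (c3 x).1 q0, mul_le_one₀ (c3 x).2 q0 (Finset.prod_le_one
      (fun i _ => ((k i).2.2.2.1 x).1) fun i _ => ((k i).2.2.2.1 x).2)⟩
  · refine closure_minimal (fun x hx => (Finset.abs_sum_le_sum_abs _ _).trans (Finset.sum_le_sum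
      fun i _ => (k i).2.2.2.2.2.1 x fun h => hx ?_)) (isClosed_le (continuous_finsetSum _
        fun i _ => (k i).1.continuous).abs continuous_const)
    simp [Finset.prod_eq_zero (f := fun i => φ i x) (Finset.mem_univ i) h]
  · simp [c4 x₀ rfl, (k _).2.2.2.2.1]

/-- **SW-C0** -/
theorem c0Stmt : Sw.C0Stmt κ lam ν := by
  intro d N _ ty C w hw
  obtain ⟨C', h⟩ := c0P (fun i => d.e (ty i)) C hw (1 * (1 + Fintype.card N))
  refine ⟨C', fun X nc P hP hC e q hq c hc hE _ => h X nc P.toPz hP.toOK hC e c hc fun x =>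
    ⟨(hE x trivial).1, ?_⟩⟩
  rw [(hE x trivial).2]
  exact (congrArg norm (add_sub_cancel_left _ _)).trans_le (norm_terms P hq c x)

end Crest.Agent.X212.Sw88
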