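import Crest.Agent.X212.St29.Jt
import Crest.Agent.X212.St29.Lim
import Crest.Agent.X212.Ext33.Main
import Crest.Agent.X212.Lvf40.Main
import Crest.Agent.X212.Sm25.Dbl
import Crest.Agent.X212.Sm25.Fin
import Crest.Agent.X212.Rob53.Ger
import Crest.Agent.X212.Rob53.Dsc
import Crest.Agent.X212.Mv17.Pun
import Crest.Agent.X212.Geo7.Gln
import Crest.Agent.X212.Hp13.Num
import Crest.Agent.X212.Sw.N0
import Crest.Agent.X212.Sw88.Rad
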